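import Vale.Agent.P014Y.C.Ld.All
import Vale.Agent.P014Y.C.Cg.Bndr
import Vale.Agent.P014Y.C.Cg.Gen
import Vale.Agent.P014Y.C.Cg.Ftw

/-!
# P014 Y, C: the exports of the analytic block without hypotheses
-/

namespace Vale.Agent.P014Y.C.Wi

theorem idl : As.IDL := As.idl0 Ms.x_bas Ms.x_msr Ms.tfc

theorem idl2 : As.IDL2 := As.idl20 Ms.x_bas Ms.x_msr Ms.tfc

theorem bnd : BND := As.bnd0 Ms.x_bas Ms.x_msr Ms.tfc

theorem lead : LEAD := Ld.lead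

theorem bndr : Cg.BNDR :=
  Cg.bndr idl2 As.dua (As.hcn As.val) As.val As.vaq0 Cg.gen (Cg.ftw As.vaq0)

end Vale.Agent.P014Y.C.Wi
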