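import Vale.Agent.P027H.Wp

/-!
# P014 Y, C: Hecke characters over an imaginary quadratic field, values at the place `v` (words)
-/

open NumberField Module
open scoped Classical

noncomputable section

namespace Vale.Agent.P014Y.C

open Vale.Agent.P027H

section

variable {K : Type} [Field K] [NumberField K] (ι : ℂ →+* ℂ_[3]) (J : K →+* ℂ)

/-- the lattice of integers -/
def Lk : Submodule ℤ ℂ :=
  LinearMap.range (J.comp (algebraMap (𝓞 K) K)).toAddMonoidHom.toIntLinearMap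

/-- imaginary quadratic field, three split, `Ω` the size of the period -/
structure Base (Ω : ℝ) : Prop where
  two : finrank ℚ K = 2
  im : IsEmpty (K →+* ℝ)
  upm : ∀ u : (𝓞 K)ˣ, u = 1 ∨ u = -1
  spl : ∃ x : 𝓞 K, ‖ι (J x)‖ < 1 ∧ ‖ι ((starRingEnd ℂ) (J x))‖ = 1
  pos : 0 < Ω
  per : Ω ^ 12 = ‖ι (g2 (Lk J) ^ 3 - 27 * g3 (Lk J) ^ 2)‖
  sur : Function.Surjective ι

/-- `lam I = α ^ (-2 e)` for `I ^ h = (α)` -/
def La (h e : ℕ) (lam : Ideal (𝓞 K) → ℂ) : Prop :=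
  lam ⊥ = 0 ∧ ∀ I, I ≠ ⊥ → ∃ α : 𝓞 K, Ideal.span {α} = I ^ h ∧ lam I = (J α)⁻¹ ^ (2 * e)

variable {M : Type} [Field M] [NumberField M] [Algebra K M]

/-- integral at the places above `v` -/
def Vi (x : M) : Prop := ∃ s : 𝓞 K, ‖ι (J s)‖ = 1 ∧ IsIntegral ℤ (algebraMap K M s * x)

/-- a basis of the elements integral above `v` -/
def Vb {n : ℕ} (b : Basis (Fin n) K M) : Prop :=
  ∀ x : M, Vi ι J x ↔ ∀ i, ‖ι (J (b.repr x i))‖ ≤ 1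

/-- the size of the discriminant at `v` -/
def dv {n : ℕ} (b : Basis (Fin n) K M) : ℝ := ‖ι (J (Algebra.discr K b))‖

/-- prime to `v` -/
def Pv (f : Ideal (𝓞 M)) : Prop := ∃ s : 𝓞 K, ‖ι (J s)‖ = 1 ∧ algebraMap (𝓞 K) (𝓞 M) s ∈ f

/-- the primes above `v` -/
def Av (P : Ideal (𝓞 M)) : Prop := P.IsMaximal ∧ ¬ Pv ι J P

/-- Hecke character `x ↦ N(x) ^ (-k)` of modulus `f`, zero on the ideals not prime to `f` -/
structure HC (k : ℕ) (f : Ideal (𝓞 M)) (a : Ideal (𝓞 M) → ℂ) : Prop where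
  one : a 1 = 1
  mul : ∀ I I', a (I * I') = a I * a I'
  zero : ∀ I, a I = 0 ↔ I = ⊥ ∨ I ⊔ f ≠ ⊤
  prn : ∀ x : 𝓞 M, x ≠ 0 → x - 1 ∈ f →
    a (Ideal.span {x}) = (J (Algebra.norm K (x : M)))⁻¹ ^ k

/-- `x ≡ 1` modulo `v ^ m` -/
def V1 (m : ℕ) (x : M) : Prop := Vi ι J ((x - 1) / 3 ^ m)

variable {r : ℕ} (W : Fin (r + 1) → Ideal (𝓞 M))

/-- equivalence of ideals modulo `v ^ m` and the primes `W` -/
def Ev (m : ℕ) (I I' : Ideal (𝓞 M)) (x : M) : Prop := V1 ι J m x ∧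
  ∃ (y z : 𝓞 M) (e e' : Fin (r + 1) → ℕ), y ≠ 0 ∧ z ≠ 0 ∧ x * z = y ∧
    Ideal.span {z} * I * ∏ i, W i ^ e i = Ideal.span {y} * I' * ∏ i, W i ^ e' i

/-- a basis of the `W`-units which are `1` modulo `v ^ m` -/
structure Gb (m : ℕ) {κ : Type} [Fintype κ] (γ : κ → M) : Prop where
  gen : ∀ x : M, Ev ι J W m 1 1 x ↔ ∃ c : κ → ℤ, x = ∏ j, γ j ^ c j
  ind : ∀ c : κ → ℤ, ∏ j, γ j ^ c j = 1 → c = 0

/-- representatives (prime to `t`) of the ray classes modulo `v ^ m` and the primes `W` -/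
structure Rp (m : ℕ) (t : 𝓞 M) (R : Finset (Ideal (𝓞 M))) : Prop where
  cop : ∀ I ∈ R, I ≠ ⊥ ∧ I ⊔ Ideal.span {t} = ⊤ ∧ ∀ i, I ⊔ W i = ⊤
  ex : ∀ I, I ≠ ⊥ → I ⊔ Ideal.span {t} = ⊤ → (∀ i, I ⊔ W i = ⊤) →
    ∃! I', I' ∈ R ∧ ∃ x, Ev ι J W m I I' x

end

section

variable {M : Type} [Field M] [NumberField M]

/-- value at `s = 0` of the (meromorphic) continuation `D / E` of the Dirichlet series -/
def AC (a : Ideal (𝓞 M) → ℂ) (z : ℂ) : Prop := ∃ δ : ℝ, 0 < δ ∧ ∃ D E : ℂ → ℂ,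
  DifferentiableOn ℂ D {s | -δ < s.re} ∧ DifferentiableOn ℂ E {s | -δ < s.re} ∧ E 0 ≠ 0 ∧
    D 0 = E 0 * z ∧
    ∀ s : ℂ, 1 < s.re → D s = E s * ∑' I, a I * (Ideal.absNorm I : ℂ) ^ (-s)

/-- the scale -/
def sc (Ω d : ℝ) (n k : ℕ) : ℝ := (‖((k - 1).factorial : ℂ_[3])‖ / Ω ^ k) ^ n * (d ^ k / √d)

/-- smoothing prime: not three, degree one, unramified -/
def Sm (c : Ideal (𝓞 M)) (l : ℕ) : Prop :=
  l.Prime ∧ l ≠ 3 ∧ Ideal.absNorm c = l ∧ ¬ c ^ 2 ∣ Ideal.span {(l : 𝓞 M)}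

/-- functions on the ray classes modulo `f` -/
def Ry {B : Type} (f : Ideal (𝓞 M)) (u : Ideal (𝓞 M) → B) : Prop :=
  ∀ (I : Ideal (𝓞 M)) (x : 𝓞 M), x ≠ 0 → x - 1 ∈ f → u (Ideal.span {x} * I) = u I

/-- no torsion in the units which are `1` modulo `f` -/
def TF (f : Ideal (𝓞 M)) : Prop := ∀ u : (𝓞 M)ˣ, (u : 𝓞 M) - 1 ∈ f → IsOfFinOrder u → u = 1

/-- auxiliary primes `W`, a character `Φ` tamely ramified at `W` and its local components `φ` -/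
structure Aux {r : ℕ} (t : 𝓞 M) (A : ℕ) (W : Fin (r + 1) → Ideal (𝓞 M))
    (Φ : Ideal (𝓞 M) → ZMod (3 ^ A)) (φ : Fin (r + 1) → M → ZMod (3 ^ A)) : Prop where
  max : ∀ i, (W i).IsMaximal
  inj : Function.Injective W
  cop : ∀ i, t ∉ W i
  add : ∀ I I', I ≠ ⊥ → I' ≠ ⊥ → (∀ i, I ⊔ W i = ⊤) → (∀ i, I' ⊔ W i = ⊤) →
    Φ (I * I') = Φ I + Φ I'
  loc : ∀ i x y, x ≠ 0 → y ≠ 0 → φ i (x * y) = φ i x + φ i y
  tam : ∀ i (x : 𝓞 M), x - 1 ∈ W i → φ i x = 0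
  prd : ∀ (x : 𝓞 M) (I : Ideal (𝓞 M)) (e : Fin (r + 1) → ℕ), x ≠ 0 → (∀ i, I ⊔ W i = ⊤) →
    Ideal.span {x} = I * ∏ i, W i ^ e i → Φ I + ∑ i, φ i x = 0

/-- coefficient of `T ^ i` in the smoothed group ring valued series -/
def zz {r A : ℕ} (W : Fin (r + 1) → Ideal (𝓞 M)) (Φ : Ideal (𝓞 M) → ZMod (3 ^ A))
    (a : Ideal (𝓞 M) → ℂ) (c : Ideal (𝓞 M)) (l i : ℕ) : ℂ :=
  ∑' I, if ∀ j, I ⊔ W j = ⊤ then
    a I * (((Φ I).val.choose i : ℂ) - l * a c * ((Φ c + Φ I).val.choose i : ℂ)) else 0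

end

end Vale.Agent.P014Y.C
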