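import Vale.Agent.P014Y.C.Defs

/-!
# P014 Y, C: the exports of the analytic block AN
-/

open NumberField Module
open scoped Classical

noncomputable section

namespace Vale.Agent.P014Y.C

/-- smoothed partial sums are bounded -/
def BND : Prop := ∀ (K : Type) [Field K] [NumberField K] (ι : ℂ →+* ℂ_[3]) (J : K →+* ℂ) (Ω : ℝ),
  Base ι J Ω → ∀ (M : Type) [Field M] [NumberField M] [Algebra K M] (n : ℕ)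
  (b : Basis (Fin n) K M), Vb ι J b → ∀ (c : Ideal (𝓞 M)) (l : ℕ), Sm c l → ∃ C : ℝ,
  ∀ (k : ℕ) (f : Ideal (𝓞 M)) (a u : Ideal (𝓞 M) → ℂ), 3 ≤ k → Pv ι J f →
    f ⊔ Ideal.span {(l : 𝓞 M)} = ⊤ → (∃ w : Ideal (𝓞 M), w.IsMaximal ∧ f ≤ w ∧ 3 ∉ w) →
    HC J k f a → Ry f u → (∀ I, ‖ι (u I)‖ ≤ 1) →
    sc Ω (dv ι J b) n k * ‖ι (∑' I, a I * (u I - l * a c * u (c * I)))‖ ≤ C

/-- the leading term -/
def LEAD : Prop := ∀ (K : Type) [Field K] [NumberField K] (ι : ℂ →+* ℂ_[3]) (J : K →+* ℂ) (Ω : ℝ),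
  Base ι J Ω → ∀ (M : Type) [Field M] [NumberField M] [Algebra K M] (n : ℕ)
  (b : Basis (Fin n) K M), Vb ι J b → ∀ (c : Ideal (𝓞 M)) (l : ℕ), Sm c l → ∀ h r : ℕ, 0 < h →
  ∀ ε : ℝ, 0 < ε → ∃ m0 : ℕ, ∀ m, m0 ≤ m → ∃ A0 : ℕ, ∀ e A : ℕ, A0 ≤ e → A0 ≤ A →
  ∀ lam : Ideal (𝓞 K) → ℂ, La J h (3 ^ e) lam → ∀ (W : Fin (r + 1) → Ideal (𝓞 M))
    (Φ : Ideal (𝓞 M) → ZMod (3 ^ A)) (φ : Fin (r + 1) → M → ZMod (3 ^ A)),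
    Aux (3 * l) A W Φ φ → ∀ γ : Fin n ⊕ Fin r → M, Gb ι J W m γ → ∀ R, Rp ι J W m (3 * l) R →
    (∀ i < r, sc Ω (dv ι J b) n (2 * h * 3 ^ e) *
      ‖ι (zz W Φ (fun I => lam (Ideal.relNorm (𝓞 K) I)) c l i)‖ ≤ ε) ∧
    |sc Ω (dv ι J b) n (2 * h * 3 ^ e) *
      ‖ι (zz W Φ (fun I => lam (Ideal.relNorm (𝓞 K) I)) c l r)‖ -
      ‖(1 - l : ℂ_[3]) * R.card * Matrix.det (Matrix.of fun j j' => Sum.elim
        (fun i => ι (J (b.repr ((γ j - 1) / 3 ^ m) i)))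
        (fun i : Fin r => ((φ i.succ (γ j)).val : ℂ_[3])) j')‖| ≤ ε

end Vale.Agent.P014Y.C
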